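import Vale.Agent.Lib.P031.Ratio

namespace Vale.Agent.Results.P031.SubsequenceLimit

open Filter Topology Vale.Agent.Lib.P031

/-- For every fixed `c > 1`, the Erdős–Hall relation `V(cx)/V(x) → c` holds along some
sequence `x = u k → ∞`; equivalently, `c` is a limit point of the ratio `V(cx)/V(x)` as `x → ∞`.
Here `V = totientValueCount` counts the distinct values of Euler's totient up to `x`. -/
theorem result : ∀ c : ℝ, 1 < c → ∃ u : ℕ → ℝ, Tendsto u atTop atTop ∧
    Tendsto (fun k : ℕ => (totientValueCount (c * u k) : ℝ) / (totientValueCount (u k) : ℝ))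
      atTop (𝓝 c) := by
  intro c hc
  have hex : ∀ k : ℕ, ∃ x : ℝ, (k : ℝ) ≤ x ∧ 1 ≤ x ∧
      |(totientValueCount (c * x) : ℝ) / totientValueCount x - c| < 1 / ((k : ℝ) + 1) :=
    fun k => exists_ratio_near hc (by positivity) k
  choose u hu1 _ hu3 using hex
  refine ⟨u, tendsto_atTop_mono hu1 tendsto_natCast_atTop_atTop, ?_⟩
  rw [Metric.tendsto_atTop]
  intro ε hε
  obtain ⟨N, hN⟩ := exists_nat_one_div_lt hε
  refine ⟨N, fun k hk => ?_⟩
  rw [Real.dist_eq]
  have h1 : 1 / ((k : ℝ) + 1) ≤ 1 / ((N : ℝ) + 1) := by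
    apply one_div_le_one_div_of_le (by positivity)
    have : (N : ℝ) ≤ k := by exact_mod_cast hk
    linarith
  exact (hu3 k).trans_le (h1.trans hN.le)

end Vale.Agent.Results.P031.SubsequenceLimit
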