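import Vale.Agent.Lib.P031.Group

namespace Vale.Agent.Results.P031.TwoRatios

open Filter Topology Vale.Agent.Lib.P031

/-- Reduction of the Erdős–Hall question (Q2) to two ratios.  If `a, b > 1` are multiplicatively
independent (`log a / log b` irrational) and the two limits `lim V(ax)/V(x)`, `lim V(bx)/V(x)`
merely exist (as real numbers), then `V(cx)/V(x) → c` for every `c > 1`.  The second part is the
instance `a = 2`, `b = 3`.  Here `V = totientValueCount`. -/
theorem result :
    (∀ a b : ℝ, 1 < a → 1 < b → Irrational (Real.log a / Real.log b) →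
      (∃ La : ℝ, Tendsto (fun x : ℝ => (totientValueCount (a * x) : ℝ)
        / (totientValueCount x : ℝ)) atTop (𝓝 La)) →
      (∃ Lb : ℝ, Tendsto (fun x : ℝ => (totientValueCount (b * x) : ℝ)
        / (totientValueCount x : ℝ)) atTop (𝓝 Lb)) →
      ∀ c : ℝ, 1 < c → Tendsto (fun x : ℝ => (totientValueCount (c * x) : ℝ)
        / (totientValueCount x : ℝ)) atTop (𝓝 c)) ∧
    ((∃ L2 : ℝ, Tendsto (fun x : ℝ => (totientValueCount (2 * x) : ℝ)
        / (totientValueCount x : ℝ)) atTop (𝓝 L2)) →
      (∃ L3 : ℝ, Tendsto (fun x : ℝ => (totientValueCount (3 * x) : ℝ)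
        / (totientValueCount x : ℝ)) atTop (𝓝 L3)) →
      ∀ c : ℝ, 1 < c → Tendsto (fun x : ℝ => (totientValueCount (c * x) : ℝ)
        / (totientValueCount x : ℝ)) atTop (𝓝 c)) := by
  refine ⟨fun a b ha hb hirr hLa hLb c hc =>
    ratioLim_of_two ha hb hirr hLa hLb (by linarith), fun hL2 hL3 c hc => ?_⟩
  exact ratioLim_of_two one_lt_two (by norm_num) irrational_log_two_div_log_three hL2 hL3
    (by linarith)

end Vale.Agent.Results.P031.TwoRatios
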